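import Vale.Agent.P011Z.LT.Tools
import Vale.Agent.P011Z.Cell

/-!
Open normal subgroups have finite index: the torus part.
-/

open Matrix Topology Filter Polynomial

namespace Vale.Agent.P011Z.LT

variable {n : Type} [Fintype n] [DecidableEq n] {S : Sys n} {I : Type} [Fintype I]

section alg

variable {F : Type} [Field F] {e : I → Matrix n n F} {k : I → ℤ}

/-- The matrix raises the degree. -/
def Ra (e : I → Matrix n n F) (k : I → ℤ) (A : Matrix n n F) : Prop :=
  ∀ i j, k i ≤ k j → e i * A * e j = 0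

omit [DecidableEq n] [Fintype I] in
theorem Ra.add {A B : Matrix n n F} (hA : Ra e k A) (hB : Ra e k B) : Ra e k (A + B) :=
  fun i j h => by rw [mul_add, add_mul, hA i j h, hB i j h, add_zero]

omit [DecidableEq n] [Fintype I] in
theorem Ra.smul {A : Matrix n n F} (hA : Ra e k A) (t : F) : Ra e k (t • A) :=
  fun i j h => by rw [mul_smul_comm, smul_mul_assoc, hA i j h, smul_zero]

omit [DecidableEq n] [Fintype I] in
theorem Ra.neg {A : Matrix n n F} (hA : Ra e k A) : Ra e k (-A) :=
  fun i j h => by rw [mul_neg, neg_mul, hA i j h, neg_zero]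

theorem Ra.mul (he : IsDec e) {A B : Matrix n n F} (hA : Ra e k A) (hB : Ra e k B) :
    Ra e k (A * B) := by
  intro i j h
  have h1 : e i * (A * B) * e j = ∑ l, e i * A * e l * (e l * B * e j) := by
    have h2 : ∀ l, e i * A * e l * (e l * B * e j) = e i * A * (e l * (B * e j)) := by
      intro l
      rw [mul_assoc (e i * A), ← mul_assoc (e l), ← mul_assoc (e l), he.idem, mul_assoc (e l)]
    simp_rw [h2]
    rw [← Finset.mul_sum, ← Finset.sum_mul, he.sum, one_mul]
    simp only [mul_assoc]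
  rw [h1]
  refine Finset.sum_eq_zero fun l _ => ?_
  rcases le_total (k i) (k l) with hl | hl
  · rw [hA i l hl, zero_mul]
  · rw [hB l j (hl.trans h), mul_zero]

omit [DecidableEq n] [Fintype I] in
theorem Ra.mul_neu {A Z : Matrix n n F} (hA : Ra e k A) (hZ : ∀ i, Commute Z (e i)) :
    Ra e k (A * Z) := fun i j h => by
  rw [← mul_assoc, mul_assoc _ Z, (hZ j).eq, ← mul_assoc, hA i j h, zero_mul]

omit [DecidableEq n] [Fintype I] in
theorem Ra.neu_mul {A Z : Matrix n n F} (hA : Ra e k A) (hZ : ∀ i, Commute Z (e i)) :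
    Ra e k (Z * A) := fun i j h => by
  rw [← mul_assoc, ← (hZ i).eq, mul_assoc Z, mul_assoc Z, hA i j h, mul_zero]

theorem Ra.trace (he : IsDec e) {A : Matrix n n F} (hA : Ra e k A) : A.trace = 0 := by
  have h1 : A = ∑ i, e i * A := by rw [← Finset.sum_mul, he.sum, one_mul]
  rw [h1, trace_sum]
  refine Finset.sum_eq_zero fun i _ => ?_
  rw [← he.idem i, mul_assoc, trace_mul_comm, hA i i le_rfl, trace_zero]

theorem dec_comm (he : IsDec e) (i j : I) : Commute (e i) (e j) := by
  by_cases h : i = j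
  · rw [h]
  · rw [Commute, SemiconjBy, he.orth i j h, he.orth j i (Ne.symm h)]

theorem sum_comm (he : IsDec e) (w : I → F) (j : I) : Commute (∑ i, w i • e i) (e j) :=
  Commute.sum_left _ _ _ fun i _ => (dec_comm he i j).smul_left _

open Classical in
theorem upE_idem (he : IsDec e) (a : ℤ) : upE e k a * upE e k a = upE e k a := by
  rw [upE, Finset.sum_mul]
  refine Finset.sum_congr rfl fun i hi => ?_
  rw [Finset.mul_sum, Finset.sum_eq_single_of_mem i hi, he.idem]
  exact fun j _ hj => he.orth i j (Ne.symm hj)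

open Classical in
theorem upE_mul (he : IsDec e) {u : Matrix n n F} (hu : Ra e k (u - 1)) (a : ℤ) :
    u * upE e k a = upE e k a * u * upE e k a := by
  have h1 : 1 - upE e k a = ∑ i with ¬ a ≤ k i, e i := by
    rw [upE, ← he.sum, ← Finset.sum_filter_add_sum_filter_not Finset.univ (fun i => a ≤ k i),
      add_sub_cancel_left]
  have h2 : (1 - upE e k a) * (u - 1) * upE e k a = 0 := by
    rw [h1, upE, Finset.sum_mul, Finset.sum_mul]
    refine Finset.sum_eq_zero fun i hi => ?_
    rw [Finset.mul_sum]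
    refine Finset.sum_eq_zero fun j hj => hu i j ?_
    rw [Finset.mem_filter] at hi hj
    exact (not_le.1 hi.2).le.trans hj.2
  have h3 := upE_idem (k := k) he a
  have h4 : (1 - upE e k a) * (u - 1) * upE e k a =
      u * upE e k a - upE e k a * u * upE e k a - (upE e k a - upE e k a * upE e k a) := by
    noncomm_ring
  rw [h4, h3, sub_self, sub_zero, sub_eq_zero] at h2
  exact h2

omit [Fintype I] in
theorem one_mem_Up : (1 : S.mon F) ∈ S.Up e k := fun i j _ => by simp

variable [CharZero F]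

theorem dl_ne (he : IsDec e) {z : S.mon F} (hz : z ∈ S.Zc e) (i : I) :
    dl (e i) (z : Matrix n n F) ≠ 0 := by
  have h := dl_mul (y := ((z⁻¹ : S.mon F) : Matrix n n F)) (he.idem i) (hz i)
  rw [Sys.coe_inv_mul, dl_one (he.idem i)] at h
  exact right_ne_zero_of_mul_eq_one h.symm

open Classical in
theorem dl_up (h : S.Gr e k) {u : S.mon F} (hu : u ∈ S.Up e k) (a : ℤ) :
    dl (upE e k a) (u : Matrix n n F) = 1 := by
  have h1 := h.dl_ldu one_mem_Up (one_mem _) hu a
  rw [one_mul, one_mul] at h1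
  rw [h1]
  exact Finset.prod_eq_one fun i _ => by rw [OneMemClass.coe_one, dl_one (h.dec.idem i)]

open Classical in
theorem prod_dl (h : S.Gr e k) {z : S.mon F} (hz : z ∈ S.Zc e) :
    ∏ i, dl (e i) (z : Matrix n n F) = (z : Matrix n n F).det := by
  obtain ⟨B, -, hB⟩ := exists_bound k
  have h1 := h.dl_ldu one_mem_Up hz one_mem_Up (-B)
  have h2 : (Finset.univ.filter fun i => -B ≤ k i) = Finset.univ :=
    Finset.filter_true_of_mem fun i _ => (hB i).1.le
  rw [one_mul, mul_one, upE, h2, h.dec.sum, dl] at h1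
  rw [← h1]
  simp

end alg

section norm

variable {F : Type} [NontriviallyNormedField F] [CharZero F] {e : I → Matrix n n F} {k : I → ℤ}

theorem sum_log (h : S.Gr e k) {z : S.mon F} (hz : z ∈ S.Zc e) :
    ∑ i, Real.log ‖dl (e i) (z : Matrix n n F)‖ = 0 := by
  rw [← Real.log_prod fun i _ => norm_ne_zero_iff.2 (dl_ne h.dec hz i), ← norm_prod, prod_dl h hz]
  have h1 := congrArg norm (Sys.det_sq z.2)
  rw [norm_pow, norm_one] at h1
  rw [(pow_eq_one_iff_of_nonneg (norm_nonneg _) two_ne_zero).1 h1, Real.log_one]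

open Classical in
theorem trace_zero_of (h : S.Gr e k) {c : I → ℤ} (hc : ∀ i j, c i < c j → k i < k j)
    {M : Subgroup (S.mon F)} (hM : S.Pl e k ≤ M)
    (hz : ∀ z ∈ M, z ∈ S.Zc e → ∑ i, (c i : ℝ) * Real.log ‖dl (e i) (z : Matrix n n F)‖ = 0)
    {u : S.mon F} (hu : u ∈ S.Up e k) (hu' : u⁻¹ ∈ S.Up e k) {Y : Matrix n n F}
    (hY : Y ∈ S.lie F) (hl : Ra e (-k) Y) :
    (((u⁻¹ : S.mon F) : Matrix n n F) * (∑ i, (c i : F) • e i) * u * Y).trace = 0 := by
  have hUp : ∀ g ∈ S.Up e k, g ∈ M := fun g hg => hM (Subgroup.subset_closure (Or.inl hg))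
  have hLo : ∀ g ∈ S.Up e (-k), g ∈ M := fun g hg => hM (Subgroup.subset_closure (Or.inr hg))
  have hnil := (h.neg.exp_mem_Up hY hl).1
  choose g hg using exists_level hc
  obtain ⟨B, -, hB⟩ := exists_bound c
  have hP := fun a => exists_P (upE_idem (k := k) h.dec a) (Sys.coe_mul_inv u)
    (upE_mul h.dec hu' a) (dl_up h hu a) hnil
  choose P hP hP1 using hP
  have hP0 : ∀ a, (P a).eval 0 = 1 := by
    intro a
    rw [hP, zero_smul, IsNilpotent.exp_zero, mul_one, dl_up h hu]
  have hfin : (⋃ i, {t | (P (k i)).IsRoot t}).Finite := by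
    refine Set.finite_iUnion fun i => finite_setOfPred_isRoot fun h0 => ?_
    have := hP0 (k i)
    rw [h0, eval_zero] at this
    exact zero_ne_one this
  have hone := poly_one (A := Finset.Ioc (-B) B) (f := fun a => P (g a)) (fun a => hP0 (g a)) hfin
    (fun t ht => by
      obtain ⟨-, v, hv, hve⟩ := h.neg.exp_mem_Up (Submodule.smul_mem _ t hY) (hl.smul t)
      have hPt : ∀ a, (P a).eval t = dl (upE e k a) ((u * v : S.mon F) : Matrix n n F) := by
        intro a
        rw [hP, Submonoid.coe_mul, hve]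
      obtain ⟨l, hl, z, hzc, u₂, hu₂, hm⟩ := h.exists_ldu (u * v) fun i => by
        rw [← hPt]
        intro h0
        exact ht (Set.mem_iUnion.2 ⟨i, h0⟩)
      have hzM : z ∈ M := by
        have h1 : z = l⁻¹ * (u * v) * u₂⁻¹ := by rw [hm]; group
        rw [h1]
        exact mul_mem (mul_mem (inv_mem (hLo l hl)) (mul_mem (hUp u hu) (hLo v hv)))
          (inv_mem (hUp u₂ hu₂))
      have hne : ∀ i, ‖dl (e i) (z : Matrix n n F)‖ ≠ 0 :=
        fun i => norm_ne_zero_iff.2 (dl_ne h.dec hzc i)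
      have h2 : ‖(∏ a ∈ Finset.Ioc (-B) B, P (g a)).eval t‖ =
          ∏ a ∈ Finset.Ioc (-B) B, ∏ i with g a ≤ k i, ‖dl (e i) (z : Matrix n n F)‖ := by
        rw [eval_prod, norm_prod]
        refine Finset.prod_congr rfl fun a _ => ?_
        rw [hPt, hm, h.dl_ldu hl hzc hu₂, norm_prod]
      have h3 : ∀ a, ∏ i with g a ≤ k i, ‖dl (e i) (z : Matrix n n F)‖ ≠ 0 :=
        fun a => Finset.prod_ne_zero_iff.2 fun i _ => hne i
      have h4 : Real.log ‖(∏ a ∈ Finset.Ioc (-B) B, P (g a)).eval t‖ = 0 := by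
        rw [h2, Real.log_prod fun a _ => h3 a]
        simp_rw [Real.log_prod fun i _ => hne i]
        rw [sum_levels c k g hg (fun i => (hB i).1.le) (fun i => (hB i).2.le)]
        simp only [zsmul_eq_mul, Int.cast_sub, sub_mul, Finset.sum_sub_distrib, ← Finset.mul_sum]
        rw [hz z hzM hzc, sum_log h hzc, mul_zero, sub_zero]
      refine Real.eq_one_of_pos_of_log_eq_zero ?_ h4
      rw [h2]
      exact lt_of_le_of_ne (by positivity) (Finset.prod_ne_zero_iff.2 fun a _ => h3 a).symm)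
  have h5 : ∑ a ∈ Finset.Ioc (-B) B, upE e k (g a) = ∑ i, (c i : F) • e i + (B : F) • 1 := by
    simp only [upE]
    rw [sum_levels c k g hg (fun i => (hB i).1.le) (fun i => (hB i).2.le), ← h.dec.sum,
      Finset.smul_sum, ← Finset.sum_add_distrib]
    refine Finset.sum_congr rfl fun i _ => ?_
    rw [sub_neg_eq_add, add_zsmul, Int.cast_smul_eq_zsmul, Int.cast_smul_eq_zsmul]
  have h6 : (((u⁻¹ : S.mon F) : Matrix n n F) * (∑ a ∈ Finset.Ioc (-B) B, upE e k (g a)) * u *
      Y).trace = 0 := by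
    rw [Finset.mul_sum, Finset.sum_mul, Finset.sum_mul, trace_sum]
    exact Finset.sum_eq_zero fun a ha => hP1 _ (hone a ha)
  rw [h5, mul_add, add_mul, add_mul, trace_add, mul_smul_comm, mul_one, smul_mul_assoc,
    Sys.coe_inv_mul, smul_mul_assoc, one_mul, trace_smul, hl.trace h.dec, smul_zero,
    add_zero] at h6
  exact h6

theorem half (h : S.Gr e k) (hT : S.TrNd F) {c : I → ℤ} (hc : ∀ i j, c i < c j → k i < k j)
    (hD : ∑ i, (c i : F) • e i ∈ S.lie F) {M : Subgroup (S.mon F)} (hM : S.Pl e k ≤ M)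
    (hz : ∀ z ∈ M, z ∈ S.Zc e → ∑ i, (c i : ℝ) * Real.log ‖dl (e i) (z : Matrix n n F)‖ = 0)
    {X : Matrix n n F} (hX : X ∈ S.lie F) (hr : Ra e k X) :
    Commute X (∑ i, (c i : F) • e i) := by
  obtain ⟨hn, u, hu, hue⟩ := h.exp_mem_Up hX hr
  obtain ⟨-, u', hu', hue'⟩ := h.exp_mem_Up (neg_mem hX) hr.neg
  have h1 : u⁻¹ = u' := by
    refine inv_eq_of_mul_eq_one_right (Subtype.ext ?_)
    rw [Submonoid.coe_mul, hue, hue', IsNilpotent.exp_mul_exp_neg_self hn, OneMemClass.coe_one]
  rw [← h1] at hu'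
  set D := ∑ i, (c i : F) • e i with hDe
  have hDc : ∀ i, Commute D (e i) := sum_comm h.dec _
  have hW : ((u⁻¹ : S.mon F) : Matrix n n F) * D * u - D ∈ S.lie F := by
    have := Sys.conj_mem u⁻¹ hD
    rw [inv_inv] at this
    exact sub_mem this hD
  have hWr : Ra e k (((u⁻¹ : S.mon F) : Matrix n n F) * D * u - D) := by
    have a1 : Ra e k (((u⁻¹ : S.mon F) : Matrix n n F) - 1) := hu'
    have a2 : Ra e k ((u : Matrix n n F) - 1) := hu
    have a3 : ((u⁻¹ : S.mon F) : Matrix n n F) * D * u - D =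
        (((u⁻¹ : S.mon F) : Matrix n n F) - 1) * D * ((u : Matrix n n F) - 1) +
          (((u⁻¹ : S.mon F) : Matrix n n F) - 1) * D + D * ((u : Matrix n n F) - 1) := by
      noncomm_ring
    rw [a3]
    exact (((a1.mul_neu hDc).mul h.dec a2).add (a1.mul_neu hDc)).add (a2.neu_mul hDc)
  have h0 := hT _ hW fun Y hY => by
    obtain ⟨A, -, Z, -, B, hB, rfl, hA, hZ, hBl⟩ := h.exists_split hY
    have hBl' : Ra e (-k) B := fun i j hij => hBl i j (neg_le_neg_iff.1 hij)
    rw [mul_add, mul_add, trace_add, trace_add, (hWr.mul h.dec hA).trace h.dec,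
      (hWr.mul_neu hZ).trace h.dec, sub_mul, trace_sub, trace_zero_of h hc hM hz hu hu' hB hBl',
      (hBl'.neu_mul hDc).trace h.dec]
    simp
  refine commute_of_exp hn ?_
  rw [← hue, Commute, SemiconjBy, ← sub_eq_zero.1 h0, ← mul_assoc, ← mul_assoc, Sys.coe_mul_inv,
    one_mul, sub_eq_zero.1 h0]

theorem key (h : S.MaxG e k) (hT : S.TrNd F) (hC : S.NoCen F) {M : Subgroup (S.mon F)}
    (hM : ∀ k', S.Gr e k' → S.Pl e k' ≤ M) {c : I → ℤ} (hD : ∑ i, (c i : F) • e i ∈ S.lie F)
    (hz : ∀ z ∈ M, z ∈ S.Zc e → ∑ i, (c i : ℝ) * Real.log ‖dl (e i) (z : Matrix n n F)‖ = 0) :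
    c = 0 := by
  obtain ⟨B, hB0, hB⟩ := exists_bound k
  have hc : ∀ i j, c i < c j → 2 * B * c i + k i < 2 * B * c j + k j := by
    intro i j hij
    have h1 : 2 * B * (c i + 1) ≤ 2 * B * c j := mul_le_mul_of_nonneg_left hij (by positivity)
    linarith [(hB i).2, (hB j).1]
  have hg : S.Gr e fun i => 2 * B * c i + k i := by
    refine ⟨h.dec, fun i j hij => ?_, ?_⟩
    · rcases lt_trichotomy (c i) (c j) with h1 | h1 | h1
      · exact absurd hij (hc i j h1).ne
      · refine h.inj ?_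
        simp only [h1] at hij
        exact add_left_cancel hij
      · exact absurd hij (hc j i h1).ne'
    · have h1 : ∑ i, ((2 * B * c i + k i : ℤ) : F) • e i =
          ((2 * B : ℤ) : F) • ∑ i, (c i : F) • e i + ∑ i, (k i : F) • e i := by
        rw [Finset.smul_sum, ← Finset.sum_add_distrib]
        refine Finset.sum_congr rfl fun i _ => ?_
        rw [Int.cast_add, Int.cast_mul (2 * B), add_smul, mul_smul]
      rw [h1]
      exact add_mem (Submodule.smul_mem _ _ hD) h.mem
  have hneg : ∑ i, ((-c) i : F) • e i = -∑ i, (c i : F) • e i := by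
    rw [← Finset.sum_neg_distrib]
    refine Finset.sum_congr rfl fun i _ => ?_
    rw [Pi.neg_apply, Int.cast_neg, neg_smul]
  have h0 := hC _ hD fun Y hY => by
    obtain ⟨A, hA, Z, -, B', hB', rfl, hAr, hZ, hBl⟩ := hg.exists_split hY
    have a1 := half hg hT hc hD (hM _ hg) hz hA hAr
    have a2 := half (c := -c) hg.neg hT
      (fun i j hij => neg_lt_neg (hc j i (neg_lt_neg_iff.1 hij))) (hneg ▸ neg_mem hD)
      (hM _ hg.neg) (fun z hz1 hz2 => by
        have := hz z hz1 hz2
        simp only [Pi.neg_apply, Int.cast_neg, neg_mul, Finset.sum_neg_distrib, this, neg_zero])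
      hB' (fun i j hij => hBl i j (neg_le_neg_iff.1 hij))
    rw [hneg, Commute.neg_right_iff] at a2
    have a3 : Commute Z (∑ i, (c i : F) • e i) :=
      Commute.sum_right _ _ _ fun i _ => (hZ i).smul_right _
    exact (((a1.add_left a3).add_left a2).eq).symm
  funext i
  have h1 := h.dec.sum_mul (fun i => (c i : F)) i
  rw [h0, zero_mul] at h1
  have h2 := (smul_eq_zero.1 h1.symm).resolve_right (h.ne i)
  exact_mod_cast h2

end norm

end Vale.Agent.P011Z.LT
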