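import Vale.Agent.P011Z.Grad

/-!
Open normal subgroups have finite index: polynomial, matrix and group lemmas.
-/

open Matrix Topology Filter Polynomial

namespace Vale.Agent.P011Z.LT

section poly

variable {F : Type} [NontriviallyNormedField F]

/-- A polynomial of absolute value one off a finite set is constant. -/
theorem poly_const {G : F[X]} {s : Set F} (hs : s.Finite) (h : ∀ t ∉ s, ‖G.eval t‖ = 1) :
    G.degree ≤ 0 := by
  by_contra hd
  have h1 := G.tendsto_norm_atTop (not_le.1 hd) (z := fun x : F => x)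
    (tendsto_norm_cobounded_atTop (E := F))
  have h2 : ∀ᶠ t in Bornology.cobounded F, t ∉ s :=
    Bornology.le_cofinite F hs.compl_mem_cofinite
  obtain ⟨t, ht1, ht2⟩ := ((h1.eventually_gt_atTop 1).and h2).exists
  rw [h t ht2] at ht1
  exact lt_irrefl _ ht1

theorem poly_one {A : Finset ℤ} {f : ℤ → F[X]} (h0 : ∀ a, (f a).eval 0 = 1) {s : Set F}
    (hs : s.Finite) (h : ∀ t ∉ s, ‖(∏ a ∈ A, f a).eval t‖ = 1) : ∀ a ∈ A, f a = 1 := by
  have h1 := eq_C_of_degree_le_zero (poly_const hs h)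
  have h2 : (∏ a ∈ A, f a).coeff 0 = 1 := by
    rw [coeff_zero_eq_eval_zero, eval_prod]
    exact Finset.prod_eq_one fun a _ => h0 a
  rw [h2, C_1] at h1
  intro a ha
  have h3 : IsUnit (f a) := isUnit_of_dvd_one (h1 ▸ Finset.dvd_prod_of_mem f ha)
  obtain ⟨r, -, hr⟩ := Polynomial.isUnit_iff.1 h3
  have h4 := h0 a
  rw [← hr, eval_C] at h4
  rw [← hr, h4, C_1]

end poly

section ring

variable {A : Type*} [Ring A] [Algebra ℚ A]

theorem commute_of_exp {a z : A} (ha : IsNilpotent a) (h : Commute (IsNilpotent.exp a) z) :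
    Commute a z := by
  obtain ⟨y, hy, hye, hc⟩ := exists_log_ring (IsNilpotent.isNilpotent_exp_sub_one ha)
  obtain ⟨w, hw, he⟩ := exp_eq_quad ha
  have h1 : Commute (IsNilpotent.exp a) a := by
    rw [he]
    exact ((Commute.one_left a).add_left (Commute.refl a)).add_left
      (((Commute.refl a).mul_left (Commute.refl a)).mul_left (hw a (Commute.refl a)))
  have hya : Commute y (-a) := (hc a h1).neg_right
  have h2 : IsNilpotent.exp (y + -a) = 1 := by
    rw [IsNilpotent.exp_add_of_commute hya hy ha.neg, hye, IsNilpotent.exp_mul_exp_neg_self ha]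
  have h3 := eq_zero_of_exp_eq_one (hya.isNilpotent_add hy ha.neg) h2
  have h4 : y = a := by rwa [← sub_eq_add_neg, sub_eq_zero] at h3
  rw [← h4]
  exact hc z h

end ring

section mat

variable {n : Type} [Fintype n] [DecidableEq n] {F : Type} [Field F] [CharZero F]

theorem exists_R {Y : Matrix n n F} (hY : IsNilpotent Y) : ∃ R : Matrix n n F[X],
    R.map (eval 0) = Y ∧ ∀ t : F, IsNilpotent.exp (t • Y) = 1 + t • R.map (eval t) := by
  have h1 : IsNilpotent ((X : F[X]) • Y.map C) :=
    (hY.map (C : F →+* F[X]).mapMatrix).smul (X : F[X])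
  obtain ⟨w, -, he⟩ := exp_eq_quad h1
  have hYC : ∀ t : F, (Y.map C).map (evalRingHom t) = Y := by
    intro t
    ext i j
    simp
  have hsm : ∀ (t : F) (M : Matrix n n F[X]),
      ((X : F[X]) • M).map (evalRingHom t) = t • M.map (evalRingHom t) := by
    intro t M
    ext i j
    simp
  have hR : ∀ t : F, (Y.map C + (X : F[X]) • (Y.map C * Y.map C * w)).map (eval t) =
      Y + t • (Y * Y * w.map (evalRingHom t)) := by
    intro t
    have h2 : (Y.map C + (X : F[X]) • (Y.map C * Y.map C * w)).map (eval t) =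
        (evalRingHom t).mapMatrix (Y.map C + (X : F[X]) • (Y.map C * Y.map C * w)) := rfl
    rw [h2, map_add, RingHom.mapMatrix_apply, RingHom.mapMatrix_apply, hsm, hYC, Matrix.map_mul,
      Matrix.map_mul, hYC]
  refine ⟨Y.map C + (X : F[X]) • (Y.map C * Y.map C * w), ?_, fun t => ?_⟩
  · rw [hR, zero_smul, add_zero]
  · have h2 := IsNilpotent.map_exp h1 (evalRingHom t).mapMatrix
    rw [he, map_add, map_add, map_mul, map_mul, map_one, RingHom.mapMatrix_apply, hsm, hYC] at h2
    rw [← h2, hR, RingHom.mapMatrix_apply, smul_add, add_assoc]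
    simp only [smul_mul_assoc, mul_smul_comm]

omit [CharZero F] in
theorem trace_eq_zero {N : Matrix n n F[X]} (h : det (1 + (X : F[X]) • N) = 1) :
    (N.map (eval 0)).trace = 0 := by
  rw [det_one_add_smul] at h
  set q := eval X (1 + (X : F[X][X]) • N.map C).det.divX.divX
  have h1 : (N.trace + q * X) * X = 0 := by linear_combination h
  have h3 := congrArg (eval 0) ((mul_eq_zero.1 h1).resolve_right X_ne_zero)
  have h2 : (N.map (eval 0)).trace = eval 0 N.trace :=
    (AddMonoidHom.map_trace (evalRingHom (0 : F)) N).symm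
  rw [h2]
  simpa using h3

/-- The determinant on the upper part along a one parameter group. -/
theorem exists_P {E u u' Y : Matrix n n F} (hE : E * E = E) (hu : u * u' = 1)
    (h1 : u' * E = E * u' * E) (hd : dl E u = 1) (hY : IsNilpotent Y) :
    ∃ P : F[X], (∀ t, P.eval t = dl E (u * IsNilpotent.exp (t • Y))) ∧
      (P = 1 → (u' * E * u * Y).trace = 0) := by
  obtain ⟨R, hR0, hR⟩ := exists_R hY
  have e1 : E * (1 - E) = 0 := by rw [mul_sub, mul_one, hE, sub_self]
  have e2 : (1 - E) * E = 0 := by rw [sub_mul, one_mul, hE, sub_self]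
  have e3 : (1 - E) * (1 - E) = 1 - E := by rw [mul_sub, mul_one, e2, sub_zero]
  have hU : (E * u * E + (1 - E)) * (E * u' * E + (1 - E)) = 1 := by
    have a1 : E * u * E * (E * u' * E) = E := by
      rw [← h1, mul_assoc (E * u), ← mul_assoc E u', ← h1, mul_assoc E, ← mul_assoc u, hu,
        one_mul, hE]
    have a2 : E * u * E * (1 - E) = 0 := by rw [mul_assoc, e1, mul_zero]
    have a3 : (1 - E) * (E * u' * E) = 0 := by
      rw [← mul_assoc, ← mul_assoc, e2, zero_mul, zero_mul]
    rw [add_mul, mul_add, mul_add, a1, a2, a3, e3]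
    abel
  set N : Matrix n n F[X] := ((E * u' * E + (1 - E)) * (E * u)).map C * R * E.map C with hN
  have hC : ∀ (t : F) (M : Matrix n n F), (M.map C).map (evalRingHom t) = M := by
    intro t M
    ext i j
    simp
  have hNt : ∀ t : F, N.map (evalRingHom t) =
      (E * u' * E + (1 - E)) * (E * u) * R.map (eval t) * E := by
    intro t
    rw [hN, Matrix.map_mul, Matrix.map_mul, hC, hC]
    rfl
  refine ⟨det (1 + (X : F[X]) • N), fun t => ?_, fun h => ?_⟩
  · have h2 : eval t (det (1 + (X : F[X]) • N)) = det (1 + t • N.map (evalRingHom t)) := by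
      rw [← coe_evalRingHom, RingHom.map_det, map_add, map_one]
      congr 2
      ext i j
      simp
    have h3 : E * (u * IsNilpotent.exp (t • Y)) * E + (1 - E) =
        (E * u * E + (1 - E)) * (1 + t • N.map (evalRingHom t)) := by
      have h4 : (E * u * E + (1 - E)) * ((E * u' * E + (1 - E)) * (E * u) * R.map (eval t) * E) =
          E * u * R.map (eval t) * E := by
        rw [mul_assoc (E * u' * E + (1 - E)), mul_assoc (E * u' * E + (1 - E)),
          ← mul_assoc (E * u * E + (1 - E)), hU, one_mul]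
      rw [hNt, mul_add (E * u * E + (1 - E)), mul_one, mul_smul_comm, h4, hR]
      simp only [mul_add, add_mul, mul_one, mul_smul_comm, smul_mul_assoc, mul_assoc]
      abel
    rw [h2, dl, h3, det_mul]
    rw [dl] at hd
    rw [hd, one_mul]
  · have h2 := trace_eq_zero h
    have h3 : N.map (eval 0) = (E * u' * E + (1 - E)) * (E * u) * Y * E := by
      rw [← hR0]
      exact hNt 0
    have h4 : (E * u' * E + (1 - E)) * (E * u) = u' * E * u := by
      rw [add_mul, ← mul_assoc (1 - E), e2, zero_mul, add_zero, ← h1, ← mul_assoc, mul_assoc u',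
        hE]
    rw [h3, h4, trace_mul_comm, ← mul_assoc, ← mul_assoc, ← mul_assoc, ← h1] at h2
    exact h2

end mat

section sums

variable {I : Type} [Fintype I]

open Classical in
theorem sum_levels {M : Type} [AddCommGroup M] (c k : I → ℤ) (g : ℤ → ℤ)
    (hg : ∀ a i, a ≤ c i ↔ g a ≤ k i) {b B : ℤ} (hb : ∀ i, b ≤ c i) (hB : ∀ i, c i ≤ B)
    (x : I → M) :
    ∑ a ∈ Finset.Ioc b B, ∑ i with g a ≤ k i, x i = ∑ i, (c i - b) • x i := by
  simp_rw [Finset.sum_filter]
  rw [Finset.sum_comm]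
  refine Finset.sum_congr rfl fun i _ => ?_
  rw [← Finset.sum_filter, Finset.sum_const]
  have h1 : (Finset.Ioc b B).filter (fun a => g a ≤ k i) = Finset.Ioc b (c i) := by
    ext a
    simp only [Finset.mem_filter, Finset.mem_Ioc, ← hg]
    exact ⟨fun h => ⟨h.1.1, h.2⟩, fun h => ⟨⟨h.1, h.2.trans (hB i)⟩, h.2⟩⟩
  rw [h1, Int.card_Ioc, ← natCast_zsmul, Int.toNat_of_nonneg (sub_nonneg.2 (hb i))]

theorem exists_bound (c : I → ℤ) : ∃ B : ℤ, 0 < B ∧ ∀ i, -B < c i ∧ c i < B := by
  refine ⟨1 + ∑ i, |c i|, by positivity, fun i => ?_⟩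
  have h1 : |c i| ≤ ∑ i, |c i| :=
    Finset.single_le_sum (f := fun i => |c i|) (fun i _ => abs_nonneg _) (Finset.mem_univ i)
  have h2 := le_abs_self (c i)
  have h3 := neg_abs_le (c i)
  constructor <;> linarith

theorem exists_level {c k : I → ℤ} (h : ∀ i j, c i < c j → k i < k j) (a : ℤ) :
    ∃ a', ∀ i, a ≤ c i ↔ a' ≤ k i := by
  classical
  by_cases h0 : ∃ i, a ≤ c i
  · obtain ⟨i0, hi0, hm⟩ := (Finset.univ.filter fun i => a ≤ c i).exists_min_image k
      (by obtain ⟨i, hi⟩ := h0; exact ⟨i, by simpa using hi⟩)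
    rw [Finset.mem_filter] at hi0
    refine ⟨k i0, fun i => ⟨fun hi => hm i (by simpa using hi), fun hi => ?_⟩⟩
    by_contra hc
    exact absurd (h i i0 ((not_le.1 hc).trans_le hi0.2)) (not_lt.2 hi)
  · obtain ⟨B, -, hB⟩ := exists_bound k
    exact ⟨B, fun i => ⟨fun hi => absurd ⟨i, hi⟩ h0, fun hi => absurd (hB i).2 (not_lt.2 hi)⟩⟩

theorem exists_int (c : I → ℚ) : ∃ N : ℤ, N ≠ 0 ∧ ∃ c' : I → ℤ, ∀ i, (c' i : ℚ) = N * c i := by
  obtain ⟨b, hb⟩ := IsLocalization.exist_integer_multiples_of_finite (nonZeroDivisors ℤ) c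
  choose c' hc' using hb
  refine ⟨b, nonZeroDivisors.ne_zero b.2, c', fun i => ?_⟩
  have := hc' i
  rw [zsmul_eq_mul] at this
  exact this

end sums

section group

variable {G : Type} [Group G]

theorem relIndex_of_cover {M Z K : Subgroup G} (hZK : Z ≤ K)
    (h : ∀ g ∈ K, ∃ z ∈ Z, z⁻¹ * g ∈ M) (h0 : M.relIndex Z ≠ 0) : M.relIndex K ≠ 0 := by
  have h1 : Finite (Z ⧸ M.subgroupOf Z) := Nat.finite_of_card_ne_zero h0
  have h2 : Function.Surjective (Subgroup.quotientSubgroupOfEmbeddingOfLE M hZK) := by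
    intro q
    obtain ⟨g, rfl⟩ := QuotientGroup.mk_surjective q
    obtain ⟨z, hz, hzg⟩ := h g g.2
    refine ⟨QuotientGroup.mk ⟨z, hz⟩, ?_⟩
    rw [Subgroup.quotientSubgroupOfEmbeddingOfLE_apply_mk, QuotientGroup.eq]
    exact hzg
  have h3 : Finite (K ⧸ M.subgroupOf K) := Finite.of_surjective _ h2
  exact Subgroup.index_ne_zero_of_finite

open Pointwise in
theorem relIndex_sup {M P Z : Subgroup G} (hP : P ≤ M)
    (hn : Z ≤ Subgroup.normalizer (P : Set G) ∨ P ≤ Subgroup.normalizer (Z : Set G))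
    (h0 : M.relIndex Z ≠ 0) : M.relIndex (P ⊔ Z) ≠ 0 := by
  refine relIndex_of_cover le_sup_right (fun g hg => ?_) h0
  have h1 : ((Z ⊔ P : Subgroup G) : Set G) = (Z : Set G) * (P : Set G) := by
    rcases hn with hn | hn
    · exact Subgroup.coe_mul_of_left_le_normalizer_right Z P hn
    · exact Subgroup.coe_mul_of_right_le_normalizer_left Z P hn
  rw [sup_comm, ← SetLike.mem_coe, h1] at hg
  obtain ⟨z, hz, x, hx, rfl⟩ := hg
  exact ⟨z, hz, by simpa using hP hx⟩

theorem index_ne_zero {I : Type} [Fintype I] (V : G →* Multiplicative (I → ℤ)) (H : Subgroup G)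
    (hker : V.ker ≤ H) (hpow : ∀ g, ∃ N : ℤ, N ≠ 0 ∧ ∃ x ∈ H, V g ^ N = V x) : H.index ≠ 0 := by
  have h1 : (H.map V.rangeRestrict).index = H.index :=
    Subgroup.index_map_eq _ V.rangeRestrict_surjective (by rwa [MonoidHom.ker_rangeRestrict])
  rw [← h1]
  have h2 : Group.FG V.range := by
    rw [Group.fg_iff_subgroup_fg, Subgroup.fg_iff_add_fg]
    exact (Submodule.fg_iff_addSubgroup_fg
      (AddSubgroup.toIntSubmodule (M := I → ℤ) (Subgroup.toAddSubgroup V.range))).1
      (IsNoetherian.noetherian _)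
  have h3 : Finite (V.range ⧸ H.map V.rangeRestrict) := by
    refine CommGroup.finite_of_fg_isMulTorsion _ fun q => ?_
    obtain ⟨y, rfl⟩ := QuotientGroup.mk_surjective q
    obtain ⟨g, rfl⟩ := V.rangeRestrict_surjective y
    obtain ⟨N, hN, x, hx, hV⟩ := hpow g
    refine isOfFinOrder_iff_zpow_eq_one.2 ⟨N, hN, ?_⟩
    rw [← QuotientGroup.mk_zpow, QuotientGroup.eq_one_iff]
    exact ⟨x, hx, Subtype.ext hV.symm⟩
  exact Subgroup.index_ne_zero_of_finite

theorem finiteIndex_comap {G' : Type} [Group G'] (f : G' →* G) (B : Subgroup G) [B.FiniteIndex] :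
    (B.comap f).FiniteIndex :=
  ⟨by rw [Subgroup.index_comap]; exact Subgroup.FiniteIndex.index_ne_zero⟩

end group

end Vale.Agent.P011Z.LT
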